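import Mathlib

/-!
Primitive recursive arithmetic on `ℚ`, for Mathlib's `Primcodable ℚ` instance (the one coming from
`Denumerable ℚ`).
-/

set_option autoImplicit false

namespace Crest.Agent.Lib.RatPrimrec

open Encodable

theorem nat_pow : Primrec₂ ((· ^ ·) : ℕ → ℕ → ℕ) :=
  Primrec₂.unpaired'.1 Nat.Primrec.pow

theorem nat_dvd : PrimrecRel ((· ∣ ·) : ℕ → ℕ → Prop) := by
  have : PrimrecRel (fun a b : ℕ => b % a = 0) :=
    Primrec.eq.comp₂ (Primrec.nat_mod.comp₂ Primrec₂.right Primrec₂.left) (Primrec₂.const 0)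
  exact this.of_eq fun a b => (Nat.dvd_iff_mod_eq_zero).symm

theorem nat_gcd : Primrec₂ Nat.gcd := by
  have h : PrimrecRel (fun (p : ℕ × ℕ) (d : ℕ) => d ∣ p.1 ∧ d ∣ p.2) :=
    PrimrecPred.and (nat_dvd.comp Primrec.snd (Primrec.fst.comp Primrec.fst))
      (nat_dvd.comp Primrec.snd (Primrec.snd.comp Primrec.fst))
  have h2 := Primrec.nat_findGreatest (f := fun p : ℕ × ℕ => p.1 + p.2)
    (Primrec.nat_add.comp Primrec.fst Primrec.snd) h
  refine h2.of_eq ?_
  rintro ⟨a, b⟩
  simp only
  rcases Nat.eq_zero_or_pos (a + b) with h0 | h0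
  · have ha : a = 0 := by omega
    have hb : b = 0 := by omega
    subst ha hb
    simp
  · have hg : 0 < Nat.gcd a b := by
      apply Nat.pos_of_ne_zero
      intro h
      rw [Nat.gcd_eq_zero_iff] at h
      omega
    rw [Nat.findGreatest_eq_iff]
    refine ⟨Nat.le_of_dvd h0 (dvd_add (Nat.gcd_dvd_left a b) (Nat.gcd_dvd_right a b)), ?_, ?_⟩
    · intro _
      exact ⟨Nat.gcd_dvd_left a b, Nat.gcd_dvd_right a b⟩
    · intro n hn _ hd
      exact absurd (Nat.le_of_dvd hg (Nat.dvd_gcd hd.1 hd.2)) (not_le.2 hn)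

theorem nat_count {p : ℕ → Prop} [DecidablePred p] (hp : PrimrecPred p) :
    Primrec (Nat.count p) := by
  have : Primrec (fun n : ℕ => (Nat.rec 0 (fun k c => if p k then c + 1 else c) n : ℕ)) :=
    Primrec.nat_rec₁ 0 (Primrec.ite (hp.comp Primrec.fst) (Primrec.succ.comp Primrec.snd)
      Primrec.snd)
  refine this.of_eq fun n => ?_
  induction n with
  | zero => simp
  | succ n ih =>
    simp only [Nat.count_succ]
    rw [ih]
    split_ifs <;> simp

/-- The code of an integer. -/
def encZ (z : ℤ) : ℕ := if 0 ≤ z then 2 * z.toNat else 2 * (-z).toNat - 1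

theorem intEquivNat_eq (z : ℤ) : Equiv.intEquivNat z = encZ z := by
  cases z with
  | ofNat n =>
    have h : Equiv.intEquivNat (Int.ofNat n) = Equiv.natSumNatEquivNat (Sum.inl n) := rfl
    rw [h]
    simp [encZ]
  | negSucc n =>
    have : ¬ (0 ≤ Int.negSucc n) := by omega
    simp only [encZ, Equiv.intEquivNat, Equiv.intEquivNatSumNat, this, if_false]
    simp
    omega

/-- The raw code of a rational number (for the `Encodable` instance). -/
def raw (q : ℚ) : ℕ := Nat.pair (encZ q.num) q.den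

theorem raw_eq (q : ℚ) : @encode ℚ Rat.instEncodable q = raw q := by
  rw [raw, ← intEquivNat_eq]
  rfl

/-- Membership in the range of the raw code. -/
def IsRaw (m : ℕ) : Prop := 0 < m.unpair.2 ∧ Nat.gcd ((m.unpair.1 + 1) / 2) m.unpair.2 = 1

instance : DecidablePred IsRaw := fun _ => by unfold IsRaw; infer_instance

theorem encZ_natAbs (z : ℤ) : (encZ z + 1) / 2 = z.natAbs := by
  unfold encZ; split_ifs <;> omega

theorem encZ_surj (k : ℕ) : ∃ z, encZ z = k := by
  obtain ⟨z, hz⟩ := Equiv.intEquivNat.surjective k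
  exact ⟨z, by rw [← intEquivNat_eq, hz]⟩

theorem isRaw_iff (m : ℕ) : IsRaw m ↔ m ∈ Set.range (@encode ℚ Rat.instEncodable) := by
  constructor
  · rintro ⟨h1, h2⟩
    obtain ⟨z, hz⟩ := encZ_surj m.unpair.1
    rw [← hz, encZ_natAbs] at h2
    refine ⟨⟨z, m.unpair.2, h1.ne', h2⟩, ?_⟩
    rw [raw_eq, raw]
    simp [hz]
  · rintro ⟨q, rfl⟩
    rw [raw_eq, raw]
    refine ⟨by simpa using q.den_pos, ?_⟩
    simp only [Nat.unpair_pair, encZ_natAbs]
    exact q.reduced

theorem primrec_isRaw : PrimrecPred IsRaw := by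
  unfold IsRaw
  refine PrimrecPred.and (Primrec.nat_lt.comp (Primrec.const 0) (Primrec.snd.comp Primrec.unpair))
    (Primrec.eq.comp (nat_gcd.comp ?_ (Primrec.snd.comp Primrec.unpair)) (Primrec.const 1))
  exact Primrec.nat_div.comp (Primrec.succ.comp (Primrec.fst.comp Primrec.unpair)) (Primrec.const 2)

/-- The code used by `Primcodable ℚ`. -/
def enc (q : ℚ) : ℕ := @encode ℚ (Primcodable.ofDenumerable ℚ).toEncodable q

theorem enc_eq (q : ℚ) : enc q = Nat.count IsRaw (raw q) := by
  have h1 : enc q = @List.countP ℕ (fun m => @decide (m ∈ Set.range (@encode ℚ Rat.instEncodable))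
      (@decidableRangeEncode ℚ Rat.instEncodable m))
      (List.range (@encode ℚ Rat.instEncodable q)) := rfl
  rw [h1, raw_eq, Nat.count]
  congr 1
  funext m
  simp only [← isRaw_iff]

theorem isRaw_raw (q : ℚ) : IsRaw (raw q) := (isRaw_iff _).2 ⟨q, raw_eq q⟩

theorem le_count_pair (N : ℕ) : N ≤ Nat.count IsRaw (Nat.pair N 1) := by
  induction N with
  | zero => simp
  | succ N ih =>
    have h1 : Nat.pair N 1 < Nat.pair (N + 1) 1 := Nat.pair_lt_pair_left 1 (Nat.lt_succ_self N)
    have h2 : IsRaw (Nat.pair N 1) := by simp [IsRaw]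
    have h3 : Nat.count IsRaw (Nat.pair N 1 + 1) ≤ Nat.count IsRaw (Nat.pair (N + 1) 1) :=
      Nat.count_monotone _ h1
    rw [Nat.count_succ, if_pos h2] at h3
    omega

theorem primrec_enc : Primrec enc := Primrec.encode

theorem primrec_raw : Primrec raw := by
  refine Primrec.of_graph ⟨fun q => Nat.pair (enc q + 1) 1,
    Primrec₂.natPair.comp (Primrec.succ.comp primrec_enc) (Primrec.const 1), fun q => ?_⟩ ?_
  · show raw q ≤ _
    by_contra hlt
    push Not at hlt
    have h1 := Nat.count_monotone IsRaw hlt.le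
    have h2 := le_count_pair (enc q + 1)
    rw [← enc_eq] at h1
    omega
  · have : PrimrecRel (fun (q : ℚ) (m : ℕ) => IsRaw m ∧ Nat.count IsRaw m = enc q) :=
      PrimrecPred.and (primrec_isRaw.comp Primrec.snd)
        (Primrec.eq.comp ((nat_count primrec_isRaw).comp Primrec.snd)
          (primrec_enc.comp Primrec.fst))
    refine this.of_eq fun q m => ⟨?_, ?_⟩
    · rintro ⟨h1, h2⟩
      rw [enc_eq] at h2
      exact (Nat.count_injective h1 (isRaw_raw q) h2).symm
    · rintro rfl
      exact ⟨isRaw_raw q, (enc_eq q).symm⟩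

theorem primrec_of_raw {α : Type*} [Primcodable α] {f : α → ℚ}
    (h : Primrec fun a => raw (f a)) : Primrec f := by
  refine Primrec.encode_iff.1 ?_
  exact ((nat_count primrec_isRaw).comp h).of_eq fun a => (enc_eq (f a)).symm

theorem rat_den : Primrec fun q : ℚ => q.den :=
  (Primrec.snd.comp (Primrec.unpair.comp primrec_raw)).of_eq fun q => by simp [raw]

theorem rat_encZ_num : Primrec fun q : ℚ => encZ q.num :=
  (Primrec.fst.comp (Primrec.unpair.comp primrec_raw)).of_eq fun q => by simp [raw]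

/-- positive part of the numerator -/
theorem rat_numP : Primrec fun q : ℚ => q.num.toNat := by
  have : Primrec fun q : ℚ => if encZ q.num % 2 = 0 then encZ q.num / 2 else 0 :=
    Primrec.ite (Primrec.eq.comp (Primrec.nat_mod.comp rat_encZ_num (Primrec.const 2))
      (Primrec.const 0)) (Primrec.nat_div.comp rat_encZ_num (Primrec.const 2)) (Primrec.const 0)
  refine this.of_eq fun q => ?_
  unfold encZ
  split_ifs <;> omega

/-- negative part of the numerator -/
theorem rat_numN : Primrec fun q : ℚ => (-q.num).toNat := by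
  have : Primrec fun q : ℚ => if encZ q.num % 2 = 0 then 0 else (encZ q.num + 1) / 2 :=
    Primrec.ite (Primrec.eq.comp (Primrec.nat_mod.comp rat_encZ_num (Primrec.const 2))
      (Primrec.const 0)) (Primrec.const 0)
      (Primrec.nat_div.comp (Primrec.succ.comp rat_encZ_num) (Primrec.const 2))
  refine this.of_eq fun q => ?_
  unfold encZ
  split_ifs <;> omega

theorem raw_mkRat (a b c : ℕ) (hc : c ≠ 0) :
    raw (mkRat ((a : ℤ) - b) c) =
      Nat.pair (if b ≤ a then 2 * ((a - b) / Nat.gcd c ((a - b) + (b - a)))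
        else 2 * ((b - a) / Nat.gcd c ((a - b) + (b - a))) - 1)
        (c / Nat.gcd c ((a - b) + (b - a))) := by
  have habs : ((a : ℤ) - b).natAbs = (a - b) + (b - a) := by omega
  rw [raw, Rat.num_mkRat, Rat.den_mkRat, if_neg hc, if_neg hc, habs]
  congr 1
  set g := Nat.gcd c ((a - b) + (b - a)) with hg
  have hgpos : 0 < g := Nat.gcd_pos_of_pos_left _ (Nat.pos_of_ne_zero hc)
  have hdvd : g ∣ (a - b) + (b - a) := Nat.gcd_dvd_right _ _
  split_ifs with hab
  · have h1 : (a : ℤ) - b = ((a - b : ℕ) : ℤ) := by omega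
    rw [h1, ← Int.natCast_div]
    simp only [encZ, Int.natCast_nonneg, if_true, Int.toNat_natCast]
  · have h1 : (a : ℤ) - b = -((b - a : ℕ) : ℤ) := by omega
    have h2 : a - b = 0 := by omega
    rw [h2, zero_add] at hdvd
    obtain ⟨k, hk⟩ := hdvd
    have hk0 : 0 < k := by
      rcases Nat.eq_zero_or_pos k with h | h
      · rw [h] at hk; omega
      · exact h
    have h3 : -((b - a : ℕ) : ℤ) / (g : ℤ) = -(k : ℤ) := by
      rw [hk]
      push_cast
      rw [← mul_neg, Int.mul_ediv_cancel_left _ (by exact_mod_cast hgpos.ne')]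
    have h4 : (b - a) / g = k := by rw [hk, Nat.mul_div_cancel_left _ hgpos]
    rw [h1, h3, h4]
    unfold encZ
    rw [if_neg (by omega)]
    simp

/-- `(a - b) / c` is primitive recursive in the natural numbers `a b c`. -/
theorem rat_mk3 {α : Type*} [Primcodable α] {a b c : α → ℕ} (ha : Primrec a) (hb : Primrec b)
    (hc : Primrec c) : Primrec fun x => ((a x : ℚ) - b x) / c x := by
  have hg : Primrec fun x => Nat.gcd (c x) ((a x - b x) + (b x - a x)) :=
    nat_gcd.comp hc (Primrec.nat_add.comp (Primrec.nat_sub.comp ha hb) (Primrec.nat_sub.comp hb ha))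
  have h1 : Primrec fun x => if c x = 0 then raw 0 else
      Nat.pair (if b x ≤ a x then 2 * ((a x - b x) / Nat.gcd (c x) ((a x - b x) + (b x - a x)))
        else 2 * ((b x - a x) / Nat.gcd (c x) ((a x - b x) + (b x - a x))) - 1)
        (c x / Nat.gcd (c x) ((a x - b x) + (b x - a x))) := by
    refine Primrec.ite (Primrec.eq.comp hc (Primrec.const 0)) (Primrec.const _)
      (Primrec₂.natPair.comp (Primrec.ite (Primrec.nat_le.comp hb ha) ?_ ?_)
        (Primrec.nat_div.comp hc hg))
    · exact Primrec.nat_double.comp (Primrec.nat_div.comp (Primrec.nat_sub.comp ha hb) hg)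
    · exact Primrec.nat_sub.comp
        (Primrec.nat_double.comp (Primrec.nat_div.comp (Primrec.nat_sub.comp hb ha) hg))
        (Primrec.const 1)
  refine primrec_of_raw (h1.of_eq fun x => ?_)
  split_ifs with h0 hab
  · simp [h0]
  all_goals
    have := raw_mkRat (a x) (b x) (c x) h0
    rw [Rat.mkRat_eq_div] at this
    push_cast at this
    rw [this]
    simp [hab]

theorem num_eq_sub (q : ℚ) : (q.num : ℚ) = (q.num.toNat : ℚ) - ((-q.num).toNat : ℚ) := by
  have : q.num = (q.num.toNat : ℤ) - ((-q.num).toNat : ℤ) := (Int.toNat_sub_toNat_neg _).symm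
  exact_mod_cast congrArg (fun z : ℤ => (z : ℚ)) this

theorem eq_sub_div (q : ℚ) : q = ((q.num.toNat : ℚ) - ((-q.num).toNat : ℚ)) / q.den := by
  rw [← num_eq_sub, Rat.num_div_den]

theorem rat_natCast : Primrec fun n : ℕ => (n : ℚ) :=
  (rat_mk3 Primrec.id (Primrec.const 0) (Primrec.const 1)).of_eq fun n => by simp

theorem rat_neg : Primrec fun q : ℚ => -q :=
  (rat_mk3 rat_numN rat_numP rat_den).of_eq fun q => by
    conv_rhs => rw [eq_sub_div q]
    ring

theorem rat_add : Primrec₂ fun p q : ℚ => p + q := by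
  have h := rat_mk3 (α := ℚ × ℚ)
    (Primrec.nat_add.comp
      (Primrec.nat_mul.comp (rat_numP.comp Primrec.fst) (rat_den.comp Primrec.snd))
      (Primrec.nat_mul.comp (rat_numP.comp Primrec.snd) (rat_den.comp Primrec.fst)))
    (Primrec.nat_add.comp
      (Primrec.nat_mul.comp (rat_numN.comp Primrec.fst) (rat_den.comp Primrec.snd))
      (Primrec.nat_mul.comp (rat_numN.comp Primrec.snd) (rat_den.comp Primrec.fst)))
    (Primrec.nat_mul.comp (rat_den.comp Primrec.fst) (rat_den.comp Primrec.snd))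
  refine h.of_eq ?_
  rintro ⟨p, q⟩
  simp only
  conv_rhs => rw [eq_sub_div p, eq_sub_div q]
  have hp : (p.den : ℚ) ≠ 0 := by exact_mod_cast p.den_nz
  have hq : (q.den : ℚ) ≠ 0 := by exact_mod_cast q.den_nz
  push_cast
  field_simp
  ring

theorem rat_mul : Primrec₂ fun p q : ℚ => p * q := by
  have h := rat_mk3 (α := ℚ × ℚ)
    (Primrec.nat_add.comp
      (Primrec.nat_mul.comp (rat_numP.comp Primrec.fst) (rat_numP.comp Primrec.snd))
      (Primrec.nat_mul.comp (rat_numN.comp Primrec.fst) (rat_numN.comp Primrec.snd)))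
    (Primrec.nat_add.comp
      (Primrec.nat_mul.comp (rat_numP.comp Primrec.fst) (rat_numN.comp Primrec.snd))
      (Primrec.nat_mul.comp (rat_numN.comp Primrec.fst) (rat_numP.comp Primrec.snd)))
    (Primrec.nat_mul.comp (rat_den.comp Primrec.fst) (rat_den.comp Primrec.snd))
  refine h.of_eq ?_
  rintro ⟨p, q⟩
  simp only
  conv_rhs => rw [eq_sub_div p, eq_sub_div q]
  have hp : (p.den : ℚ) ≠ 0 := by exact_mod_cast p.den_nz
  have hq : (q.den : ℚ) ≠ 0 := by exact_mod_cast q.den_nz
  push_cast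
  field_simp
  ring

theorem rat_sub : Primrec₂ fun p q : ℚ => p - q :=
  (rat_add.comp₂ Primrec₂.left (rat_neg.comp₂ Primrec₂.right)).of_eq fun p q => by ring

theorem rat_nonpos : PrimrecPred fun q : ℚ => q ≤ 0 :=
  (Primrec.eq.comp rat_numP (Primrec.const 0)).of_eq fun q => by
    rw [Int.toNat_eq_zero, Rat.num_nonpos]

theorem rat_le : PrimrecRel fun p q : ℚ => p ≤ q :=
  PrimrecRel.of_eq (r := fun p q : ℚ => p - q ≤ 0) (rat_nonpos.comp rat_sub)
    fun _ _ => sub_nonpos

theorem rat_inv : Primrec fun q : ℚ => q⁻¹ := by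
  have h : Primrec fun q : ℚ => if q ≤ 0 then (((0 : ℕ) : ℚ) - q.den) / ((-q.num).toNat : ℕ)
      else ((q.den : ℚ) - (0 : ℕ)) / (q.num.toNat : ℕ) :=
    Primrec.ite rat_nonpos (rat_mk3 (Primrec.const 0) rat_den rat_numN)
      (rat_mk3 rat_den (Primrec.const 0) rat_numP)
  refine h.of_eq fun q => ?_
  conv_rhs => rw [eq_sub_div q]
  split_ifs with hq
  · have : q.num.toNat = 0 := by rw [Int.toNat_eq_zero, Rat.num_nonpos]; exact hq
    rw [this, inv_div]
    simp [neg_div, div_neg]
  · have : (-q.num).toNat = 0 := by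
      rw [Int.toNat_eq_zero, neg_nonpos, Rat.num_nonneg]
      exact (not_le.1 hq).le
    rw [this, inv_div]
    simp

theorem rat_div : Primrec₂ fun p q : ℚ => p / q :=
  (rat_mul.comp₂ Primrec₂.left (rat_inv.comp₂ Primrec₂.right)).of_eq fun p q => by
    rw [div_eq_mul_inv]

theorem rat_pow : Primrec₂ fun (q : ℚ) (n : ℕ) => q ^ n := by
  have : Primrec₂ fun (q : ℚ) (n : ℕ) => (Nat.rec 1 (fun _ r => r * q) n : ℚ) :=
    Primrec.nat_rec (Primrec.const 1)
      (rat_mul.comp (Primrec.snd.comp Primrec.snd) Primrec.fst).to₂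
  refine this.of_eq fun q n => ?_
  induction n with
  | zero => simp
  | succ n ih => simp [pow_succ, ih]

theorem rat_list_sum : Primrec fun l : List ℚ => l.sum := by
  have : Primrec fun l : List ℚ => l.foldr (fun a s => a + s) 0 :=
    Primrec.list_foldr Primrec.id (Primrec.const 0)
      (rat_add.comp (Primrec.fst.comp Primrec.snd) (Primrec.snd.comp Primrec.snd)).to₂
  exact this.of_eq fun l => by rw [List.sum_eq_foldr]

end Crest.Agent.Lib.RatPrimrec
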